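import Vale.Agent.Lib.SignSeq

namespace Vale.Agent.Results.P262.LowerBound

open Finset

/-- For every `d ≥ 2`: (1) for every `r` there are unit vectors `v 0, v 1, ...` in `ℝ^d`
such that for every choice of signs some prefix sum of at most `d + r - 1` signed vectors has
squared Euclidean norm at least `d + 1 - 2 (1/2)^r`; (2) hence for every `B < sqrt (d + 1)`
some finite sequence of unit vectors forces a signed prefix sum of norm greater than `B`. -/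
theorem result (d : ℕ) (hd : 2 ≤ d) :
    (∀ r : ℕ, ∃ v : ℕ → EuclideanSpace ℝ (Fin d), (∀ i, ‖v i‖ = 1) ∧
      ∀ ε : ℕ → ℝ, (∀ i, ε i = 1 ∨ ε i = -1) →
        ∃ k, k ≤ d + r - 1 ∧
          (d : ℝ) + 1 - 2 * (1 / 2 : ℝ) ^ r ≤ ‖∑ i ∈ range k, ε i • v i‖ ^ 2) ∧
    (∀ B : ℝ, B < Real.sqrt ((d : ℝ) + 1) →
      ∃ (N : ℕ) (v : ℕ → EuclideanSpace ℝ (Fin d)), (∀ i, ‖v i‖ = 1) ∧
        ∀ ε : ℕ → ℝ, (∀ i, ε i = 1 ∨ ε i = -1) →
          ∃ k, k ≤ N ∧ B < ‖∑ i ∈ range k, ε i • v i‖) := by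
  have part1 := fun r : ℕ => Vale.Agent.Lib.SignSeq.euclid_forcing d hd r
  refine ⟨part1, ?_⟩
  intro B hB
  have hd0 : (0 : ℝ) ≤ (d : ℝ) + 1 := by positivity
  obtain ⟨B', hB'⟩ : ∃ B' : ℝ, B' = max B 0 := ⟨_, rfl⟩
  have hB'0 : 0 ≤ B' := by rw [hB']; exact le_max_right _ _
  have hBB' : B ≤ B' := by rw [hB']; exact le_max_left _ _
  have hB'lt : B' < Real.sqrt ((d : ℝ) + 1) := by
    rw [hB']
    apply max_lt hB
    apply Real.sqrt_pos.mpr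
    positivity
  have hsq : B' ^ 2 < (d : ℝ) + 1 := by
    have h1 : B' ^ 2 < Real.sqrt ((d : ℝ) + 1) ^ 2 := by
      apply pow_lt_pow_left₀ hB'lt hB'0
      norm_num
    rwa [Real.sq_sqrt hd0] at h1
  obtain ⟨r, hr⟩ := exists_pow_lt_of_lt_one
    (show (0 : ℝ) < ((d : ℝ) + 1 - B' ^ 2) / 2 by linarith) (show (1 / 2 : ℝ) < 1 by norm_num)
  obtain ⟨v, hv1, hv2⟩ := part1 r
  refine ⟨d + r - 1, v, hv1, ?_⟩
  intro ε hε
  obtain ⟨k, hk, hk2⟩ := hv2 ε hε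
  refine ⟨k, hk, ?_⟩
  apply lt_of_le_of_lt hBB'
  by_contra hcon
  rw [not_lt] at hcon
  have h2 : ‖∑ i ∈ range k, ε i • v i‖ ^ 2 ≤ B' ^ 2 :=
    pow_le_pow_left₀ (norm_nonneg _) hcon 2
  linarith

end Vale.Agent.Results.P262.LowerBound
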